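import Vale.Agent.P215Z.Core.Defs

/-!
# P215: the free group of rank three embeds in the free group of rank two
-/

noncomputable section

namespace Vale.Agent.P215Z

namespace Inj32

/-- the letter read at height `n` -/
def lt (n : ℤ) : F3 :=
  if n = 0 then FreeGroup.of 0 else if n = 1 then FreeGroup.of 1 else FreeGroup.of 2

def sh : Equiv.Perm (ℤ × F3) where
  toFun x := (x.1 - 1, x.2)
  invFun x := (x.1 + 1, x.2)
  left_inv x := by simp
  right_inv x := by simp

def ml : Equiv.Perm (ℤ × F3) where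
  toFun x := (x.1, lt x.1 * x.2)
  invFun x := (x.1, (lt x.1)⁻¹ * x.2)
  left_inv x := by simp
  right_inv x := by simp

def rho : FreeGroup (Fin 2) →* Equiv.Perm (ℤ × F3) := FreeGroup.lift ![sh, ml]

def gen (k : Fin 3) : FreeGroup (Fin 2) :=
  FreeGroup.of 0 ^ (k : ℕ) * FreeGroup.of 1 * (FreeGroup.of 0 ^ (k : ℕ))⁻¹

def io : F3 →* FreeGroup (Fin 2) := FreeGroup.lift gen

theorem rho_gen (k : Fin 3) (g : F3) : rho (gen k) (0, g) = (0, FreeGroup.of k * g) := by
  have h0 : rho (FreeGroup.of 0) = sh := by simp [rho]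
  have h1 : rho (FreeGroup.of 1) = ml := by simp [rho]
  have hs : ∀ x : ℤ × F3, sh x = (x.1 - 1, x.2) := fun _ => rfl
  have hs' : ∀ x : ℤ × F3, sh⁻¹ x = (x.1 + 1, x.2) := fun _ => rfl
  have hm : ∀ x : ℤ × F3, ml x = (x.1, lt x.1 * x.2) := fun _ => rfl
  fin_cases k
  · simp [gen, h1, hm, lt]
  · simp only [gen, map_mul, map_inv, h0, h1, pow_one, Equiv.Perm.mul_apply, hs, hs', hm]
    simp [lt]
  · simp only [gen, map_mul, map_inv, h0, h1, pow_two, mul_inv_rev,
      Equiv.Perm.mul_apply, hs, hs', hm]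
    simp [lt]

theorem rho_io (w : F3) : ∀ g : F3, rho (io w) (0, g) = (0, w * g) := by
  induction w using FreeGroup.induction_on with
  | C1 => intro g; simp
  | of k => intro g; simpa [io] using rho_gen k g
  | inv_of k ih =>
    intro g
    have h := ih ((FreeGroup.of k)⁻¹ * g)
    rw [map_inv, map_inv, Equiv.Perm.inv_eq_iff_eq]
    simpa using h.symm
  | mul x y hx hy => intro g; rw [map_mul, map_mul, Equiv.Perm.mul_apply, hy, hx, mul_assoc]

theorem io_injective : Function.Injective io := by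
  rw [injective_iff_map_eq_one]
  intro w hw
  have h := rho_io w 1
  rw [hw, map_one] at h
  simpa using (congrArg Prod.snd h).symm

end Inj32

theorem exists_inj32 : ∃ ι : F3 →* FreeGroup (Fin 2), Function.Injective ι :=
  ⟨Inj32.io, Inj32.io_injective⟩

end Vale.Agent.P215Z
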