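import Vale.Agent.P215Z.Top.Defs
import Vale.Agent.P215Z.Top.Cover.Inj

/-!
# P215: monodromy of a regular covering with group `F3`, and the lift of a framed disc
-/

noncomputable section

namespace Vale.Agent.P215Z

open P215.H788

namespace Mono

instance : ContractibleSpace Disc :=
  (convex_closedBall (0 : ℝ × ℝ) 1).contractibleSpace ⟨0, by simp⟩

instance : LocallyPathConnectedSpace Disc :=
  (convex_closedBall (0 : ℝ × ℝ) 1).locallyPathConnectedSpace

instance : PreconnectedSpace Circ :=
  isPreconnected_iff_preconnectedSpace.1 (isPreconnected_sphere (by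
    rw [rank_prod', Module.rank_self]; norm_num) _ _)

theorem continuous_toDisc : Continuous Circ.toDisc :=
  continuous_subtype_val.subtype_mk _

variable {E X T : Type} [TopologicalSpace E] [TopologicalSpace X] [TopologicalSpace T]

/-- monodromy along a path which is covered by an explicit path -/
theorem mono_of_lift {p : E → X} (cov : IsCoveringMap p) {x y : X} (γ : Path x y)
    (ex : p ⁻¹' {x}) (ey : p ⁻¹' {y}) (Γ : Path ex.1 ey.1) (h : ∀ t, p (Γ t) = γ t) :
    cov.monodromy (Path.Homotopic.Quotient.mk γ) ex = ey := by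
  apply cov.monodromy_eq_of_map_eq (Path.Homotopic.Quotient.mk Γ)
  refine congr_arg Path.Homotopic.Quotient.mk ?_
  ext t
  exact h t

/-- a homomorphism whose kernel consists of loops with closed lifts -/
theorem exists_hom [MulAction F3 E] {p : E → X} (hp : IsQuotientCoveringMap p F3) (j : C(T, X))
    (t0 : T) (e0 : p ⁻¹' {j t0}) :
    ∃ φ : FundamentalGroup T t0 →* FreeGroup (Fin 2), ∀ γ : Path t0 t0,
      φ (FundamentalGroup.fromPath (Path.Homotopic.Quotient.mk γ)) = 1 →
        hp.isCoveringMap.monodromy (Path.Homotopic.Quotient.mk (γ.map j.continuous)) e0 = e0 := by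
  obtain ⟨ι, hι⟩ := exists_inj32
  refine ⟨ι.comp ((MulEquiv.inv' F3).symm.toMonoidHom.comp
    ((hp.fundamentalGroupToMulOpposite e0).comp (FundamentalGroup.map j t0))), fun γ h => ?_⟩
  rw [MonoidHom.comp_apply, map_eq_one_iff _ hι, MonoidHom.comp_apply, MulEquiv.coe_toMonoidHom,
    map_eq_one_iff _ (MulEquiv.inv' F3).symm.injective, MonoidHom.comp_apply,
    hp.fundamentalGroupToMulOpposite_eq_one_iff] at h
  exact h

end Mono

open Mono in
/-- The lift of a framed disc whose double point loops are killed by the monodromy. -/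
theorem exists_lift {E X T : Type} [TopologicalSpace E] [TopologicalSpace X] [TopologicalSpace T]
    [MulAction F3 E] {p : E → X} (hp : IsQuotientCoveringMap p F3) (j : C(T, X))
    (e : Circ × Disc → T) (z0 : Circ) (s : Circ → E) (hs : Continuous s)
    (hps : ∀ z, p (s z) = j (e (z, Disc.zero))) :
    ∃ φ : FundamentalGroup T (e (z0, Disc.zero)) →* FreeGroup (Fin 2),
      ∀ D : FramedDisc T e, D.Kills φ → ∃ F : Disc → E, Continuous F ∧
        (∀ x, p (F x) = j (D.map (x, Disc.zero))) ∧ (∀ z : Circ, F z.toDisc = s z) ∧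
        ∀ x y, D.map (x, Disc.zero) = D.map (y, Disc.zero) → F x = F y := by
  obtain ⟨φ, hφ⟩ := exists_hom hp j (e (z0, Disc.zero)) ⟨s z0, hps z0⟩
  refine ⟨φ, fun D hD => ?_⟩
  have cov := hp.isCoveringMap
  have hi : Continuous fun x : Disc => (x, Disc.zero) := continuous_id.prodMk continuous_const
  have hm : Continuous fun x : Disc => D.map (x, Disc.zero) := D.continuous_map.comp hi
  obtain ⟨F, ⟨hF0, hF⟩, -⟩ := cov.existsUnique_continuousMap_lifts
    (j.comp ⟨_, hm⟩) z0.toDisc (s z0) (by
      rw [hps]; simp only [ContinuousMap.comp_apply, ContinuousMap.coe_mk]; rw [D.boundary])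
  have hF' : ∀ x, p (F x) = j (D.map (x, Disc.zero)) := fun x => congrFun hF x
  have hb : ∀ z : Circ, F z.toDisc = s z := by
    have := cov.eq_of_comp_eq (g₁ := fun z : Circ => F z.toDisc) (g₂ := s)
      (F.continuous.comp continuous_toDisc) hs (by
        funext z
        simp only [Function.comp_apply]
        rw [hF', hps, D.boundary]) z0 hF0
    exact fun z => congrFun this z
  have key : ∀ k, F (D.a k Disc.zero) = F (D.b k Disc.zero) := by
    intro k
    let α : Path z0.toDisc (D.a k Disc.zero) := PathConnectedSpace.somePath _ _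
    let β : Path (D.a k Disc.zero) (D.b k Disc.zero) := PathConnectedSpace.somePath _ _
    let c : Path (e (z0, Disc.zero)) (D.map (D.fst k)) :=
      (α.map hm).cast (D.boundary z0 Disc.zero).symm rfl
    let l : Path (D.fst k) (D.snd k) := β.map hi
    have h := hφ _ (hD k c l)
    let e0 : p ⁻¹' {j (e (z0, Disc.zero))} := ⟨s z0, hps z0⟩
    let ea : p ⁻¹' {j (D.map (D.fst k))} := ⟨F (D.a k Disc.zero), hF' _⟩
    let eb : p ⁻¹' {j (D.map (D.fst k))} :=
      ⟨F (D.b k Disc.zero), (hF' _).trans (congrArg j (D.map_fst k).symm)⟩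
    have h1 : cov.monodromy (Path.Homotopic.Quotient.mk (c.map j.continuous)) e0 = ea :=
      mono_of_lift cov _ e0 ea ((α.map F.continuous).cast hF0.symm rfl) fun t => hF' (α t)
    have h2 : cov.monodromy
        (Path.Homotopic.Quotient.mk ((D.doublePointLoop k l).map j.continuous)) ea = eb :=
      mono_of_lift cov _ ea eb (β.map F.continuous) fun t => hF' (β t)
    have h3 : cov.monodromy (Path.Homotopic.Quotient.mk (c.map j.continuous).symm) ea = e0 :=
      mono_of_lift cov _ ea e0 ((α.map F.continuous).cast hF0.symm rfl).symm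
        fun t => hF' (α (unitInterval.symm t))
    rw [Path.map_trans, Path.map_trans, ← Path.map_symm, Path.Homotopic.Quotient.mk_trans,
      Path.Homotopic.Quotient.mk_trans, cov.monodromy_trans_apply, cov.monodromy_trans_apply] at h
    have h4 := h
    rw [show (⟨s z0, hps z0⟩ : p ⁻¹' {j (e (z0, Disc.zero))}) = e0 from rfl, h1, h2, ← h3] at h4
    exact (congrArg Subtype.val ((cov.monodromy_bijective _).1 h4)).symm
  refine ⟨F, F.continuous, hF', hb, fun x y hxy => ?_⟩
  rcases D.injective_map _ _ hxy with h | ⟨k, u, v, ⟨h1, h2⟩ | ⟨h1, h2⟩⟩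
  · rw [(Prod.mk.inj h).1]
  · obtain ⟨rfl, rfl⟩ := Prod.mk.inj h1
    obtain ⟨rfl, rfl⟩ := Prod.mk.inj h2
    exact key k
  · obtain ⟨rfl, rfl⟩ := Prod.mk.inj h1
    obtain ⟨rfl, rfl⟩ := Prod.mk.inj h2
    exact (key k).symm

end Vale.Agent.P215Z
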